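import Vale.Agent.P275WB.Col
import Vale.Agent.P275MC.Gy
import Vale.Agent.P275XB.Cpt
import Vale.Agent.P275Z.Mid
import Vale.Agent.P275PA.Wt
import Vale.Agent.P275LF.Alg
import Vale.Agent.P275S.Trunc

/-!
# P275, block WBR (helper52): Deligne's filtration is dual to the weights on compact supports
-/

open scoped Manifold ContDiff Topology Matrix
open CategoryTheory Filter Set Function TopologicalSpace
open Vale.Agent.P272.K Vale.Agent.P281Z.Hg Vale.Agent.P275MC Vale.Agent.P275AR Vale.Agent.P275WL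
open Vale.Agent.P275FM (Coh flt Low Grd IsGr)
open Vale.Agent.P275RG (Cp cptCp)
open Vale.Agent.P275ST (XB Cpt dimR)
open Vale.Agent.P275XB (Ok cX cp_cpt)
open Vale.Agent.P275Z (WH InWK CocyK evX ChlH LowH TX)
open P275S (H Hd KG I sec app pushC gcl unit Nice)

set_option linter.unusedSectionVars false
set_option backward.isDefEq.respectTransparency false

noncomputable section

namespace Vale.Agent.P275WB

theorem cz (k : Type) [Field k] (X : TopCat.{0}) [Nice X] : CZ k X :=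
  fun _ hF _ _ hs => hF.softC.clsOK.eq_zero_iff hs

theorem evX_pr {X : TopCat.{0}} (m : ℤ) (a : H ℂ X) : evX X (KG.pr m a) = KG.pr m (evX X a) :=
  (congrArg (P275S.glob _) (KG.pr_comp_of_left (zero_add m) P275S.unit_mem a).symm).trans
    (P275S.glob_pr _ _)

theorem mem_WH_pr {X Y : TopCat.{0}} (j : X ⟶ Y) {w : ℤ} {a : H ℂ X} :
    a ∈ WH j w ↔ ∀ m, KG.pr m a ∈ WH j w := by
  refine ⟨fun h m => ?_, fun h => ?_⟩
  · change evX X _ ∈ P275Z.Wt j w
    rw [evX_pr]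
    exact P275PA.pr_mem_Wt j h m
  · obtain ⟨s, -, e⟩ := KG.exists_sum_pr a
    exact e ▸ Submodule.sum_mem _ fun m _ => h m

theorem tw_iso {k : Type} [Field k] {X Y : TopCat.{0}} (f : X ⟶ Y) {F G : P275S.Cx k X}
    (σ : F ⟶ G) [QuasiIso ((pushC k f).map σ)] {L : P275S.Cx k Y} (i : (pushC k f).obj F ≅ L)
    {m : ℤ} (a : ℤ) (s : sec (F.X m) ⊤) (hs : app (F.d m (m + 1)) ⊤ s = 0) :
    ∃ (t : sec (L.X m) ⊤) (ht : app (L.d m (m + 1)) ⊤ t = 0),
      (TW a (P275S.cls (F := (pushC k f).obj G) (app (σ.f m) ⊤ s)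
        (P275S.hom_app_cocycle s hs σ)) ↔ TW a (P275S.cls t ht)) ∧ t = app (i.hom.f m) ⊤ s := by
  let s' : sec (((pushC k f).obj F).X m) ⊤ := s
  have hs' : app (((pushC k f).obj F).d m (m + 1)) ⊤ s' = 0 := hs
  refine ⟨_, P275S.cocy_map i.hom hs', ?_, rfl⟩
  rw [← P275S.cls_comp s' hs', TW.iso, ← TW.iso (DerivedCategory.Q.map ((pushC k f).map σ)),
    P275S.cls_comp]
  rfl

theorem tw_push {k : Type} [Field k] {X Y : TopCat.{0}} {V : Type} [AddCommGroup V] [Module k V]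
    (f : X ⟶ Y) (C : CoC k X V) (N : ℤ) {G : P275S.Cx k X} (σ : C.cx N ⟶ G)
    [QuasiIso ((pushC k f).map σ)] {m : ℤ} (a : ℤ) (s : sec ((C.cx N).X m) ⊤)
    (hs : app ((C.cx N).d m (m + 1)) ⊤ s = 0) :
    ∃ (t : sec (((C.push f).cx N).X m) ⊤) (ht : app (((C.push f).cx N).d m (m + 1)) ⊤ t = 0),
      (TW a (P275S.cls (F := (pushC k f).obj G) (app (σ.f m) ⊤ s)
        (P275S.hom_app_cocycle s hs σ)) ↔ TW a (P275S.cls t ht)) ∧
      ∀ u hu, ((C.push f).P (N - m)).ev t ⟨u, hu⟩ = (C.P (N - m)).ev s ⟨u, hu⟩ := by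
  obtain ⟨t, ht, h1, h2⟩ := tw_iso f σ (C.pushIso f N) a s hs
  exact ⟨t, ht, h1, fun _ _ => by rw [h2, CoC.app_pushIso]; rfl⟩

variable {n : ℕ} {M : Type} [TopologicalSpace M] [ChartedSpace (Cm n) M] [T2Space M]
  [IsManifold 𝓘(ℂ, Cm n) ω M] [SecondCountableTopology M] (c : Cp n M)

/-- the open embedding in the compactification -/
abbrev jc : TopCat.of M ⟶ TopCat.of c.Y.X := tm (oe c).smo

/-- **the truncation in terms of the weights** -/
theorem m4 (w : ℤ) {m : ℤ} (T : sec ((Cur n M).X m) ⊤)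
    (hT : app ((Cur n M).d m (m + 1)) ⊤ T = 0) :
    InWK (jc c) w (⟨app ((σI n M).f m) ⊤ T, P275S.hom_app_cocycle T hT _⟩ : CocyK ℂ _ m) ↔
      ∀ z (hz : z ∈ Am n ((n + n : ℕ) - m) univ) (h0 : dd n M z = 0),
        hc z hz.1 h0 ∈ flt (wt c) ((n + n : ℕ) - w).toNat → cv' T ⟨z, hz⟩ = 0 := by
  have := nice (d := n) (M := M)
  have := nice (d := n) (M := c.Y.X)
  have := P275S.qis_push (jc c) flqC_Cur.softC (P275S.softC_I ℂ _) (σI n M)
  have ok := arr_ok c.snc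
  have r : range c.j = (⋃ l, c.G l)ᶜ := c.emb.rng.trans off_eq
  obtain ⟨t, ht, h1, h2⟩ := tw_push (jc c) (amC n M) (n + n : ℕ) (σI n M) (w - m) T hT
  refine h1.trans ((tw_model (cz ℂ _) (mp_ext ok (arr_top c.snc) rfl (oe c) r)
    (qi_ext ok (arr_top c.snc) rfl (oe c) r) (pj_cp _ ok (w - m + 1)) (kC_bd _ ok)
    ⟨(n + n : ℕ), fun _ hi => eq_bot_iff.2 (inf_le_right.trans (Dg_big hi).le)⟩
    (fun q hq => (std_arr c.snc).pz_quo ok (by omega))
    (fun q hq => (std_arr c.snc).pz_sub ok (by omega)) t ht).trans ?_)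
  refine forall₃_congr fun z hz h0 => imp_congr ((inK_iff c _ hz h0).trans ?_)
    (Iff.of_eq (congrArg (· = 0) (h2 z hz)))
  rw [show (n + n : ℕ) - m + 1 - (w - m + 1) = (n + n : ℕ) - w by ring]

theorem mem_WH_deg (w : ℤ) {m : ℤ} {a : H ℂ (TopCat.of M)} (ha : a ∈ Hd ℂ _ m) :
    a ∈ WH (jc c) w ↔ ∀ x ∈ flt (wt c) ((n + n : ℕ) - w).toNat, pd n M a x = 0 := by
  obtain ⟨T, hT, e⟩ := ex_cur (d := n) ha
  have h1 : evX _ a = P275Z.cl ⟨app ((σI n M).f m) ⊤ T, P275S.hom_app_cocycle T hT _⟩ :=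
    (congrArg (P275S.glob _) (e.trans (P275S.gcl_comp_hom _ _ _))).trans (P275S.glob_gcl _ _)
  change evX _ a ∈ P275Z.Wt _ w ↔ _
  rw [h1, P275PA.cl_mem_Wt, m4 c w T hT]
  refine ⟨fun h x hx => ?_, fun h z hz h0 hx => ?_⟩
  · have h2 := prH_flt c ((n + n : ℕ) - m) hx
    obtain ⟨z, hz, rfl⟩ := Coh.ind x
    rw [pd_eq, pdL_cur T hT e]
    exact mul_eq_zero_of_right _ (h _ _ (dd_pj (congrArg Subtype.val hz) _) h2)
  · have h2 := (pdL_cur (V := univ) T hT e ⟨z, hz.1⟩ (Subtype.ext h0)).symm.trans (h _ hx)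
    exact (congrArg (cv' T) (Subtype.ext (pj_eq hz.2).symm)).trans
      ((mul_eq_zero_iff_left (sg_ne m)).1 h2)

/-- **Deligne's filtration is the annihilator of the weight filtration on compact supports** -/
theorem mem_WH (w : ℤ) (a : H ℂ (TopCat.of M)) :
    a ∈ WH (jc c) w ↔ ∀ x ∈ flt (wt c) ((n + n : ℕ) - w).toNat, pd n M a x = 0 := by
  rw [mem_WH_pr]
  refine ⟨fun h x hx => ?_, fun h m => (mem_WH_deg c w (KG.pr_mem_deg m a)).2 fun x hx => ?_⟩
  · obtain ⟨s, -, e⟩ := KG.exists_sum_pr a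
    rw [← e, map_sum, LinearMap.sum_apply]
    exact Finset.sum_eq_zero fun m _ => (mem_WH_deg c w (KG.pr_mem_deg m a)).1 (h m) x hx
  · rw [pd_pr (add_sub_cancel m _)]
    exact h _ (prH_flt c _ hx)

/-- the weight filtration on cohomology, by duality -/
def WT (w : ℤ) : Submodule ℂ (H ℂ (TopCat.of M)) :=
  (flt (wt c) ((n + n : ℕ) - w).toNat).dualAnnihilator.comap (pd n M).toLinearMap

theorem mem_WT {w : ℤ} {a : H ℂ (TopCat.of M)} :
    a ∈ WT c w ↔ ∀ x ∈ flt (wt c) ((n + n : ℕ) - w).toNat, pd n M a x = 0 :=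
  Submodule.mem_dualAnnihilator _

theorem WH_eq (w : ℤ) : WH (jc c) w = WT c w :=
  Submodule.ext fun a => (mem_WH c w a).trans (mem_WT c).symm

theorem WT_congr {c' : Cp n M} (h : P275RG.Alg c c' fun x => x) : WT c = WT c' :=
  funext fun w => by rw [WT, WT, wt_eq h]

/-- a class with compact support is detected by the annihilator -/
theorem mem_flt {p : ℕ} {x : Hc n (univ : Set M)} :
    x ∈ flt (wt c) p ↔ ∀ a ∈ WT c ((n + n : ℕ) - p), pd n M a x = 0 := by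
  simp only [mem_WT, sub_sub_cancel, Int.toNat_natCast]
  refine ⟨fun h a ha => ha x h, fun h => ?_⟩
  rw [← Subspace.dualAnnihilator_dualCoannihilator_eq (W := flt (wt c) p),
    Submodule.mem_dualCoannihilator]
  intro φ hφ
  obtain ⟨a, rfl⟩ := (pd n M).surjective φ
  exact h a ((Submodule.mem_dualAnnihilator _).1 hφ)

/-- curious hard Lefschetz passes from compact supports to cohomology -/
theorem chl_WT {e : H ℂ (TopCat.of M)} {p r : ℤ} (he : e ∈ Hd ℂ _ p) (hp : Even p)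
    (h : P275LF.CHL (hm n univ e) r fun a => flt (wt c) (a + 1).toNat) :
    P275LF.CHL (LinearMap.mulLeft ℂ e) (n - r) (WT c) := by
  have := nice (d := n) (M := M)
  have := (h.dual n).of_surj (F' := WT c) (s := 0) (e' := LinearMap.mulLeft ℂ e)
    (Φ := (pd n M).symm.toLinearMap) (pd n M).symm.surjective (fun a φ => by
      rw [WT, Submodule.mem_comap, LinearEquiv.coe_coe, LinearEquiv.coe_coe,
        LinearEquiv.apply_symm_apply, show 2 * (n : ℤ) - a - 1 + 1 = (n + n : ℕ) - (a + 2 * 0) by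
          push_cast; ring]) fun φ => by
      obtain ⟨a, rfl⟩ := (pd n M).surjective φ
      rw [LinearEquiv.coe_coe, LinearEquiv.symm_apply_apply, LinearEquiv.symm_apply_eq,
        LinearMap.mulLeft_apply, (P275S.commute_of_even he hp a).eq]
      exact LinearMap.ext fun x => (pd_mul a e x).symm
  rwa [add_zero] at this

section two

variable {n' : ℕ} {M' : Type} [TopologicalSpace M'] [ChartedSpace (Cm n') M'] [T2Space M']
  [IsManifold 𝓘(ℂ, Cm n') ω M'] [SecondCountableTopology M'] {c' : Cp n' M'}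

/-- the transpose of a filtered map is filtered -/
theorem WT_of_low {T : H ℂ (TopCat.of M') →ₗ[ℂ] H ℂ (TopCat.of M)}
    {S : Hc n (univ : Set M) →ₗ[ℂ] Hc n' (univ : Set M')} {s : ℤ}
    (e : ∀ a x, pd n M (T a) x = pd n' M' a (S x)) (h : Low (wt c) (wt c') s S) {w w' : ℤ}
    (hw : w' + s + 2 * n ≤ w + 2 * n') {a : H ℂ (TopCat.of M')} (ha : a ∈ WT c' w') :
    T a ∈ WT c w := (mem_WT c).2 fun x hx => by
  rw [e]
  by_cases k : ((n + n : ℕ) - w).toNat = 0
  · rw [(gr_wt c).flt_zero (x := x) (k ▸ hx), map_zero, map_zero]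
  · exact (mem_WT c').1 ha _ (h.map_flt (gr_wt c) (by omega) hx)

/-- and conversely -/
theorem low_of_WT {T : H ℂ (TopCat.of M') →ₗ[ℂ] H ℂ (TopCat.of M)}
    {S : Hc n (univ : Set M) →ₗ[ℂ] Hc n' (univ : Set M')} {s : ℤ}
    (e : ∀ a x, pd n M (T a) x = pd n' M' a (S x))
    (h : ∀ w, ∀ a ∈ WT c' w, T a ∈ WT c (w + s + 2 * n - 2 * n')) : Low (wt c) (wt c') s S :=
  Low.of_flt (gr_wt c) fun p p' x hp hx => (mem_flt c').2 fun a ha => by
    rw [← e]
    exact (mem_WT c).1 (h _ a ha) x (P275FM.flt_mono (by omega) hx)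

end two

section xb

variable {g n : ℕ} {d : ℤ} [Ok g n d]

/-- **the literal filtration on the character variety, for every compactification** -/
theorem WH_cpt (Y : Cpt g n d) : WH Y.hom = WT (cX g n d) := by
  obtain ⟨e, h, -⟩ := cp_cpt Y
  exact funext fun w => (WH_eq (cptCp Y e) w).trans (congrFun (WT_congr _ h) w)

theorem chlH_iff (Y : Cpt g n d) (e : H ℂ (TX g n d)) :
    ChlH Y e ↔ P275LF.CHL (LinearMap.mulLeft ℂ e) (dimR g n) (WT (cX g n d)) := by
  rw [ChlH, WH_cpt]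
  exact ⟨fun h => ⟨h.1, h.2⟩, fun h => ⟨h.1, h.2⟩⟩

theorem chlH_of (Y : Cpt g n d) {e : H ℂ (TX g n d)} (he : e ∈ Hd ℂ _ 2)
    (h : P275LF.CHL (hm (2 * dimR g n) univ e) (dimR g n)
      fun a => flt (wt (cX g n d)) (a + 1).toNat) : ChlH Y e := by
  have := chl_WT (cX g n d) he even_two h
  rw [show ((2 * dimR g n : ℕ) : ℤ) - dimR g n = dimR g n by push_cast; ring] at this
  exact (chlH_iff Y e).2 this

theorem lowH_iff (Y : Cpt g n d) (T : Module.End ℂ (H ℂ (TX g n d))) :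
    LowH Y T ↔ ∀ a : ℤ, ∀ v ∈ WT (cX g n d) (2 * a), T v ∈ WT (cX g n d) (2 * (a - 2)) := by
  rw [LowH, WH_cpt]

theorem lowH_of (Y : Cpt g n d) {T : Module.End ℂ (H ℂ (TX g n d))}
    {S : Module.End ℂ (Hc (2 * dimR g n) (univ : Set (XB g n d)))}
    (e : ∀ a x, pd _ _ (T a) x = pd _ _ a (S x))
    (h : Low (wt (cX g n d)) (wt (cX g n d)) (-4) S) : LowH Y T :=
  (lowH_iff Y T).2 fun _ _ hv => WT_of_low _ e h (by omega) hv

end xb

end Vale.Agent.P275WB
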