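import Vale.Agent.P275TB.Pbb

/-!
# P275, flat bundles: the pull-back from the fibre of a trivialised bundle is graded
-/

open scoped Manifold ContDiff Topology
open Set Function Filter
open Vale.Agent.P272.K Vale.Agent.P281Z.Hg Vale.Agent.P275MC Vale.Agent.P275FM Vale.Agent.P275AR
  Vale.Agent.P275B Vale.Agent.P275RG Vale.Agent.P275TB
open Vale.Agent.P281Z (HolM HolA imm_id)

noncomputable section

namespace Vale.Agent.P275WB

/-- **PBX** -/
theorem pbx (W : WF) {b d D : ℕ} {B : Mn b} {c : Cv B} {M : Vr d} (F : Fl c M D) (X : Vr d)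
    (κ : c.ι → M.X ≃ₜ X.X) (h1 : ∀ i, Alg M.cp X.cp (κ i)) (h2 : ∀ i, Alg X.cp M.cp (κ i).symm)
    {t : F.T.X → X.X} (hi : F.Inv (fun i => κ i) t) (ht : Smo D d t) :
    Grd (wT (wt X.cp)) (wH W F) 0 (P275S.pb (tm ht)).toLinearMap := by
  obtain rfl : D = d + b := F.dim.trans (add_comm _ _)
  have hΘ := holM_mk (hi.hol fun i => (h1 i).hol) F.hq
  let g : c.ι → X.X × B.X → F.T.X := fun a p => F.ψ a (p.2, (κ a).symm p.1)
  have k1 : ∀ a z, F.q z ∈ c.V a → g a (t z, F.q z) = z := fun a z k => by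
    simp only [g, hi a z k, Homeomorph.symm_apply_apply, F.ψφ a z k]
  have k2 : ∀ a p, p.2 ∈ c.V a → (t (g a p), F.q (g a p)) = p := fun a p k => by
    have e : F.q (g a p) = p.2 := F.qψ a _ k
    refine Prod.ext ((hi a _ (e.symm ▸ k)).trans ?_) e
    exact (congrArg (κ a) (F.φψ a _ k)).trans ((κ a).apply_symm_apply _)
  have k3 : ∀ a p, p.2 ∈ c.V a → HolA (d + b) (d + b) (g a) p := fun a p k =>
    (F.hψ a _ k).cmp ((holM_mk hol_snd ((h2 a).hol.comp hol_fst)).at p)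
  refine grd_prod (gr_wt _) (W.gr F) ht (smo_of_hol F.hq) ⟨smo_of_hol hΘ, fun z z' k => ?_,
    fun z => ?_⟩ (ori_of_imm hΘ fun z => ?_) (fun p => ?_) fun y hy y0 =>
      W.const F X h1 (fun i => (κ i).isProperMap) hi ht _ y y0 hy
  · obtain ⟨a, ha⟩ := c.cov (F.q z)
    have e : F.q z = F.q z' := congrArg Prod.snd k
    exact (k1 a z ha).symm.trans ((congrArg (g a) k).trans (k1 a z' (e ▸ ha)))
  · obtain ⟨a, ha⟩ := c.cov (F.q z)
    exact ⟨g a, k1 a z ha, smA_of_hol (k3 a _ ha),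
      (continuousAt_snd.eventually ((c.opn a).eventually_mem ha)).mono (k2 a)⟩
  · obtain ⟨a, ha⟩ := c.cov (F.q z)
    exact .of_comp (k3 a _ ha) (hΘ.at z)
      ((imm_id z).cng ((F.tv.near ha).mono fun u k => (k1 a u k).symm))
  · obtain ⟨a, ha⟩ := c.cov p.2
    exact ⟨_, k2 a p ha⟩

end Vale.Agent.P275WB
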