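import Vale.Agent.P275CH.Defs
import Vale.Agent.P275MC.Gk
import Vale.Agent.P275LO.LH

/-!
# P275, the integral along the fibres of a class which spans the top degree is a unit
-/

open scoped Manifold ContDiff Topology
open Set Topology Function CategoryTheory TopologicalSpace Filter
open Vale.Agent.P272.K Vale.Agent.P281Z Vale.Agent.P281Z.Hg Vale.Agent.P275MC
open Vale.Agent.P275AR (Act)
open P275S (H Hd K Nice lc act)

set_option backward.isDefEq.respectTransparency false

noncomputable section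

namespace Vale.Agent.P275WB

/-- an operator along the fibres of a proper map only sees the fibre -/
theorem act_pt {k : Type} [Field k] {X Z P : TopCat.{0}} [Nice Z] [Nice X] {p : Z ⟶ X}
    (hp : IsProperMap p) (a : X) {i : P ⟶ Z} (hi : IsInducing i) (hr : range i = p ⁻¹' {a})
    (φ : K k p ⟶ K k (𝟙 X)) {u : H k Z} (hu : P275S.pb i u = 0) {ψ : LocallyConstant X k}
    (e : lc ψ = act φ u) : ψ a = 0 := by
  obtain ⟨f, hf⟩ := P275LO.ex_fib (k := k) hp a hi hr
  obtain ⟨g, hg⟩ := P275LO.ex_fib (k := k) (p := 𝟙 X) isProperMap_id a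
    (i := TopCat.ofHom (ContinuousMap.const Unit a))
    ⟨by simp only [Subsingleton.elim (instTopologicalSpacePUnit) ⊤]; exact Subsingleton.elim _ _⟩
    (Set.range_const)
  have h1 := hg (lc ψ)
  rw [P275S.pb_lc, e, P275S.evK_act, P275S.germ_comp, f.map_eq_zero_iff.1 ((hf u).trans hu),
    Limits.zero_comp, map_zero, ← map_zero lc] at h1
  exact DFunLike.congr_fun (P275S.lc_injective h1).symm ()

theorem holM_opn {d D : ℕ} {M N : Type} [TopologicalSpace M] [ChartedSpace (Cm d) M]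
    [TopologicalSpace N] [ChartedSpace (Cm D) N] {U : Opens M} {V : Opens N} {f : M → N}
    {g : U → V} (e : ∀ x, (g x).1 = f x) (h : ∀ x : U, HolA d D f x) : HolM d D g := fun x =>
  (ChartedSpace.liftPropWithinAt_subtypeVal_comp_iff ..).1
    (show ContMDiffAt 𝓘(ℂ, Cm d) 𝓘(ℂ, Cm D) ω (Subtype.val ∘ g) x from
      (funext e : Subtype.val ∘ g = fun x : U => f x) ▸ contMDiffAt_subtype_iff.2 (h x))

/-- **LOC** -/
theorem loc : P275CH.LOC := by
  intro d N D X F π hπ h Δ hD hol hp hs hΔ sp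
  obtain ⟨φ, hφ⟩ := P275S.exists_lc (gys_mem h hΔ (n := 0) (by omega))
  refine hφ ▸ P275S.isUnit_lc fun x e0 => ?_
  obtain ⟨y, rfl, hy⟩ := hs x
  obtain ⟨g, -, g1, g2⟩ := hy.sec (hol.at y)
  obtain ⟨W, w1, w2, w3⟩ := mem_nhds_iff.1 (g1.near.and g2)
  let U : Opens X.X := ⟨W, w2⟩
  let V : Opens F.X := ⟨π ⁻¹' W, w2.preimage hol.cont⟩
  let p : V → U := W.restrictPreimage π
  let s : U → V := fun z => ⟨g z, show π (g z) ∈ W from (w1 z.2).2.symm ▸ z.2⟩
  have ps : ∀ z, p (s z) = z := fun z => Subtype.ext (w1 z.2).2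
  have sp' : Smo D d p := smo_of_hol (holM_opn (fun _ => rfl) fun z => hol.at z.1)
  have ss : Smo d D s := smo_of_hol (holM_opn (fun _ => rfl) fun z => (w1 z.2).1)
  have pp : IsProperMap p := hp.restrictPreimage W
  have hs := act_univ ss (LeftInverse.isClosedEmbedding ps sp'.cont ss.cont).isProperMap
  have hi : Smo d d fun z => p (s z) := Pb1H.smo_comp ss sp'
  have hI := act_univ hi ((funext ps : (fun z => p (s z)) = id) ▸ isProperMap_id)
  obtain ⟨Z, j, j1, j2, j3⟩ := sp (π y)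
  have j4 : ∀ z, j z ∈ V := fun z => show π (j z) ∈ W from (j2.subset ⟨z, rfl⟩).symm ▸ w3
  let i : Z ⟶ TopCat.of V := TopCat.ofHom ⟨fun z => ⟨j z, j4 z⟩, j1.continuous.subtype_mk _⟩
  obtain ⟨c, hc⟩ := j3 _ (P275S.pb_mem i (gys_mem hs P275S.one_mem_Hd (n := 2 * N) (by omega)))
  have := nice (d := D) (M := V)
  have := nice (d := d) (M := U)
  have k := act_pt (p := tm sp') pp ⟨_, w3⟩ (i := i) (j1.codRestrict j4)
    (Set.ext fun z => ⟨fun ⟨t, e⟩ => Subtype.ext (e ▸ j2.subset ⟨t, rfl⟩), fun e =>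
      let ⟨t, e'⟩ := j2.superset (congrArg Subtype.val e); ⟨t, Subtype.ext e'⟩⟩) (gyK sp' pp)
    (u := gys hs 1 - c • P275S.pb (tm (oe_val V).smo) Δ)
    (by rw [map_sub, map_smul, hc, P275S.pb_comp]; exact sub_self _)
    (ψ := 1 - c • φ.comap (tm (oe_val U).smo).hom) (by
      rw [act_gyK sp' pp (act_univ sp' pp), map_sub, map_sub, map_smul, map_smul, map_one,
        ← gys_comp hs _ hI, gys_id hI ps, ← P275S.pb_lc, hφ,
        gys_opn (oe_val U) (ori_val U) (oe_val V) (ori_val V) h (act_univ sp' pp) (fun _ => rfl)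
          fun z ⟨t, e⟩ => ⟨⟨z, show π z ∈ W from e ▸ t.2⟩, rfl⟩])
  exact one_ne_zero (((sub_zero _).symm.trans (congrArg (1 - ·)
    ((mul_zero c).symm.trans (congrArg (c * ·) e0.symm)))).trans k)

end Vale.Agent.P275WB
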