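import Vale.Agent.P275WL.Kc
import Vale.Agent.P275AR.Pair
import Vale.Agent.P275AR.Cp
import Vale.Agent.P275MC.Pd

/-!
# P275, block WBR (helper52): columns, degrees and weights
-/

open scoped Manifold ContDiff Topology Matrix
open Filter Set Function TopologicalSpace
open Vale.Agent.P272.K Vale.Agent.P281Z.Hg Vale.Agent.P275MC Vale.Agent.P275AR Vale.Agent.P275WL
open Vale.Agent.P275FM (Coh Ch Tri IsGr flt)
open Vale.Agent.P275RG (Cp)

set_option linter.unusedSectionVars false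

noncomputable section

namespace Vale.Agent.P275WB

section dia

variable {X : Dia}

theorem col_ok (h : X.OK) : X.tri.Col X.cl where
  gr := ⟨fun j k x => funext fun s => by
      by_cases e : j = k
      · simp only [Fam.cl_apply, e, if_true]
        split_ifs <;> rfl
      · simp only [Fam.cl_apply, e, if_false]
        split_ifs <;> first | rfl | omega, by
    obtain ⟨b, hb⟩ := X.top
    refine ⟨b, fun x => funext fun s => ?_⟩
    simp only [Finset.sum_apply, Fam.cl_apply, Finset.sum_ite_eq, Finset.mem_range]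
    exact if_pos (by have := hb s; omega)⟩
  A _ a := Fam.gl_del a _
  B p a := (map_sub (X.cl p) (X.d a) (X.del a)).trans
    (congrArg₂ (· - ·) (Fam.gl_d a _) (Fam.gl_del a _))
  δ p a := (h.gl_δ (fun c _ => if c = p + 1 then 1 else 0) a).trans
    (congrArg X.δ (Fam.gl_congr a fun _ _ _ => if_congr Nat.add_right_cancel_iff rfl rfl))
  δ0 a := (h.gl_δ (fun c _ => if c = 0 then 1 else 0) a).trans ((congrArg X.δ
    ((Fam.gl_congr a (c' := fun _ _ => 0) fun _ _ _ => if_neg (Nat.succ_ne_zero _)).trans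
      ((Fam.gl_const a 0).trans (zero_smul _ _)))).trans (map_zero _))
  dg _ _ a := Fam.gl_comm a _ _

theorem tot_tz (m : ℕ) (u : X.T) : X.tri.tot X.cl m u = tz X m u := by
  rw [Tri.tot_apply]
  refine (Finset.sum_congr rfl fun p _ => Fam.gl_gl u _ _).trans ((Fam.gl_sum u _ _).trans
    (Fam.gl_congr u fun s j _ => ?_))
  simp only [ite_mul, one_mul, zero_mul, Finset.sum_ite_eq, Finset.mem_range]
  split_ifs <;> first | rfl | omega

end dia

variable {n : ℕ} {M : Type} [TopologicalSpace M] [ChartedSpace (Cm n) M] [T2Space M]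
  [IsManifold 𝓘(ℂ, Cm n) ω M] (c : Cp n M)

theorem tz_em (k : ℤ) {a : SF n M} (ha : a ∈ Ac n univ) :
    tz (KC c) k (em c a) = em c (pj n M k a) :=
  (tz_e0 (B := ovr c.snc) rfl k _).trans (congrArg _ ((oe c).ext_pj ha k).symm)

theorem iso_prH (k : ℕ) (x : Hc n (univ : Set M)) : iso c (prH n univ k x) =
    Coh.map _ ((KC_ok c).ch_tot (col_ok (arr_ok c.snc)) k) (iso c x) := by
  obtain ⟨z, hz, rfl⟩ := Coh.ind x
  exact Coh.mk_congr ((tot_tz k _).trans (tz_em c k z.2)).symm _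

theorem prH_neg {k : ℤ} (hk : k < 0) (x : Hc n (univ : Set M)) : prH n univ k x = 0 := by
  obtain ⟨z, hz, rfl⟩ := Coh.ind x
  exact Coh.mk_eq_zero.2 ⟨0, Subtype.ext (((Dg_neg hk).le (pj_mem k z.1)).trans
    (map_zero (dd n M)).symm)⟩

/-- the weights commute with the degrees -/
theorem wt_prH (q : ℕ) (k : ℤ) (x : Hc n (univ : Set M)) :
    wt c q (prH n univ k x) = prH n univ k (wt c q x) := by
  rcases lt_or_ge k 0 with h | h
  · rw [prH_neg h, prH_neg h, map_zero]
  · obtain ⟨k, rfl⟩ := Int.eq_ofNat_of_zero_le h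
    refine (iso c).injective ?_
    rw [iso_wt, iso_prH, iso_prH, iso_wt, (KC_ok c).wt_tot (col_ok (arr_ok c.snc))]

theorem prH_flt {p : ℕ} (k : ℤ) {x : Hc n (univ : Set M)} (hx : x ∈ flt (wt c) p) :
    prH n univ k x ∈ flt (wt c) p := fun q hq => by rw [wt_prH, hx q hq, map_zero]

theorem prH_hc {k : ℤ} {z : SF n M} (hz : z ∈ Am n k univ) (h0 : dd n M z = 0) :
    prH n univ k (hc z hz.1 h0) = hc z hz.1 h0 := Coh.mk_congr (Subtype.ext (pj_eq hz.2)) _

/-- the weights in degree `k` are at most `k` -/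
theorem wt_le {k : ℤ} {q : ℕ} (h : k < q) (x : Hc n (univ : Set M)) :
    wt c q (prH n univ k x) = 0 := by
  rcases lt_or_ge k 0 with e | e
  · rw [prH_neg e, map_zero]
  · obtain ⟨k, rfl⟩ := Int.eq_ofNat_of_zero_le e
    refine (iso c).injective ?_
    rw [iso_wt, map_zero]
    refine (KC_ok c).wt_le (col_ok (arr_ok c.snc)) (m := k) (by omega) ?_
    obtain ⟨z, hz, rfl⟩ := Coh.ind x
    rw [← iso_prH]
    exact congrArg _ (Coh.mk_congr (Subtype.ext (pj_eq (pj_mem _ _))) _)

/-- **columns and weights** -/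
theorem inK_iff (a : ℤ) {k : ℤ} {z : SF n M} (hz : z ∈ Am n k univ) (h0 : dd n M z = 0) :
    InK (kC (ovr c.snc) (arr_ok _)) (em c) (cp (KC c) a) k z ↔
      hc z hz.1 h0 ∈ flt (wt c) (k + 1 - a).toNat := by
  rcases lt_or_ge k 0 with e | e
  · obtain rfl : z = 0 := (Dg_neg e).le hz.2
    exact iff_of_true ⟨0, zero_mem _, by simp only [map_zero, add_zero]⟩
      (by rw [hc_zero.2 ⟨0, zero_mem _, (map_zero _).symm⟩]; exact zero_mem _)
  obtain ⟨k, rfl⟩ := Int.eq_ofNat_of_zero_le e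
  have ok := arr_ok c.snc
  have t : em c z ∈ TD (KC c) k := by
    have := tz_mem k (em c z)
    rwa [tz_em c k hz.1, pj_eq hz.2] at this
  have hx := (iso_prH c k (hc z hz.1 h0)).symm
  rw [prH_hc hz] at hx
  have k1 := (KC_ok c).col_iff (col_ok ok) a.toNat hx
  have k2 : (∀ q, k < q + a.toNat → (KC_ok c).wt q (iso c (hc z hz.1 h0)) = 0) ↔
      hc z hz.1 h0 ∈ flt (wt c) ((k : ℤ) + 1 - a).toNat := by
    have b : ∀ q x, (KC_ok c).wt q (iso c x) = 0 ↔ wt c q x = 0 := fun q x => by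
      rw [← iso_wt, (iso c).map_eq_zero_iff]
    refine ⟨fun h q hq => (b _ _).1 (h q (by omega)), fun h q hq => (b _ _).2 ?_⟩
    by_cases e : k < q
    · rw [← prH_hc hz]
      exact wt_le c (by omega) _
    · exact h q (by omega)
  rw [← k2, ← k1]
  constructor
  · rintro ⟨y, hy, h⟩
    have d := D_TD ok (mem_kS.1 hy).2
    rw [sub_add_cancel] at d
    refine ⟨em c z + (KC c).D y, ?_, (tot_tz k _).trans (tz_eq (add_mem t d)),
      fun j hj => funext fun s => ?_, Coh.mk_eq.2 ⟨-y, ?_⟩⟩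
    · rw [Dia.tri_D_apply, map_add, D_em hz.1, h0, map_zero, ok.D_D, add_zero]
    · rw [Fam.cl_apply]
      split_ifs with e
      · exact cp_eq_zero.1 h s (by omega)
      · rfl
    · rw [Dia.tri_D_apply, map_neg]
      exact sub_add_cancel_left _ _
  · rintro ⟨u, hu, h1, h2, h3⟩
    obtain ⟨y, hy⟩ := Coh.mk_eq.1 h3
    have h4 : em c z - u = (KC c).D y := hy.trans (Dia.tri_D_apply y)
    refine ⟨-tz (KC c) (k - 1) y, neg_mem (mem_kS.2 ⟨Dia.Ov.Kc_univ.ge trivial, tz_mem _ _⟩), ?_⟩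
    change cp _ a (em c z + (KC c).D _) = 0
    rw [map_neg, ← tz_D ok, ← h4, map_sub, tz_eq t, ← tot_tz, h1, neg_sub, add_sub_cancel]
    refine cp_eq_zero.2 fun s hs => ?_
    simpa only [Fam.cl_apply, if_true, Pi.zero_apply] using congrFun (h2 ((KC c).col s) (by omega)) s

end Vale.Agent.P275WB
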